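import Vale.Agent.P281Z.An.All
import Vale.Agent.P281Z.Mf.Prod
import Vale.Agent.P281Z.Pb.Api

/-!
# P281, block FIB: resolution of the graph of a meromorphic map
-/

open scoped Manifold ContDiff Topology
open Set Filter Function
open Vale.Agent.P272.K
open Vale.Agent.P277Z (Hol Mer Nz gen at_chart hol_const)
open Vale.Agent.P277Z.Slc (Ind Snc)

noncomputable section

namespace Vale.Agent.P281Z.Fi

variable {n q : ℕ} {V : Mf n} {Y : Mf q} {B : Set V.X}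

/-- the resolution of a graph -/
theorem mgr (hR : RES) {φ : V.X → Y.X} {A : Set (V.prod Y).X} (hB : Thin n B)
    (hφ : ∀ x ∉ B, HolA n q φ x) (hA : An (n + q) A)
    (h : ∀ x ∉ B, ∀ y, V.pair Y x y ∈ A ↔ φ x = y) :
    ∃ (V' : Mf n) (μ : V'.X → V.X) (g : V'.X → Y.X) (k : ℕ) (G : Fin k → Set V'.X),
      Modif n μ B ∧ HolM n q g ∧ (∀ y, V.pair Y (μ y) (g y) ∈ A) ∧ Snc n G ∧
      (∀ y, μ y ∈ B ↔ ∃ l, y ∈ G l) ∧ (V.Kah → Y.Kah → V'.Kah) := by
  obtain ⟨I, hI⟩ := idl _ (V.prod Y) _ (hB.1.pre (hol_p1 (W := Y)))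
  have hO : IsOpen Bᶜ := hB.closed.isOpen_compl
  have hS : SubM (n + q) n (A \ I.Z) := fun z hz => by
    rw [hI] at hz ⊢
    have h1 : φ (V.p1 Y z) = V.p2 Y z := (h _ hz.2 _).1 hz.1
    have he := at_chart (n := q) (φ (V.p1 Y z))
    refine ⟨q, _, rfl, fp_ind (b := fun y => y) (hφ _ hz.2) (holM_id.at _) h1 (.inr (sbm_id _)) he,
      ?_⟩
    filter_upwards [cont_p1.continuousAt.eventually (hO.mem_nhds hz.2),
      ((hφ _ hz.2).cmp (hol_p1.at z)).cont.eventually (at_near he),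
      cont_p2.continuousAt.eventually (at_near (h1 ▸ he))] with w k1 k2 k3
    simp only [sub_eq_zero, ← funext_iff]
    exact ⟨fun k => congrArg _ ((h _ k1 _).1 k.1), fun k =>
      ⟨(h _ k1 _).2 ((chartAt (Cm q) (φ (V.p1 Y z))).injOn k2.2 (h1 ▸ k3.2) k), k1⟩⟩
  obtain ⟨V', π, k, G, h1, h2, h3, -, h4, -⟩ := hR _ _ _ A I hA hS
  rw [hI] at h1 h3
  have h5 : ∀ y, V.p1 Y (π y) ∉ B → π y = V.pair Y (V.p1 Y (π y)) (φ (V.p1 Y (π y))) :=
    fun y hy => prod_ext rfl ((h _ hy _).1 (h1.maps y)).symm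
  have h6 : HolM n n fun y => V.p1 Y (π y) := hol_p1.comp h1.hol
  refine ⟨V', _, fun y => V.p2 Y (π y), k, G, ⟨hB, h6, fun _ => trivial, h1.dense, fun x _ hx => ?_,
    fun y hy => ?_⟩, hol_p2.comp h1.hol, h1.maps, h2, fun y => ?_, fun a b => h4 (a.prod b)⟩
  · obtain ⟨y, a, b⟩ := h1.one _ ((h x hx _).2 rfl) hx
    exact ⟨y, congrArg (V.p1 Y) a, fun y' c => b y' ((h5 y' fun k => hx
      ((show V.p1 Y (π y') = x from c) ▸ k)).trans (congrArg (fun x => V.pair Y x (φ x)) c))⟩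
  · exact Imm.of_comp (g := fun x => V.pair Y x (φ x)) ((holM_id.at _).pair (hφ _ hy)) (h6.at y)
      ((h1.imm y hy).cng ((h6.cont.continuousAt.eventually (hO.mem_nhds hy)).mono h5))
  · rw [← mem_iUnion, ← h3]
    rfl

/-- principalization of a thin set -/
theorem prin (hR : RES) (hB : Thin n B) :
    ∃ (V' : Mf n) (μ : V'.X → V.X) (k : ℕ) (G : Fin k → Set V'.X), Modif n μ B ∧ Snc n G ∧
      (∀ y, μ y ∈ B ↔ ∃ l, y ∈ G l) ∧ (V.Kah → V'.Kah) ∧ (V.Prj → V'.Prj) := by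
  obtain ⟨I, rfl⟩ := idl _ V _ hB.1
  obtain ⟨V', π, k, G, h1, h2, h3, -, h4, h5⟩ := hR n n V univ I an_univ
    (subM_open (isOpen_univ.sdiff hB.closed))
  exact ⟨V', π, k, G, ⟨hB, h1⟩, h2, fun y => by rw [← mem_iUnion, ← h3]; rfl, h4,
    fun ⟨L, a, b⟩ => h5 L a b⟩

/-- a map lifts to a resolution of its image, on a modification -/
theorem lift (hR : RES) {N : ℕ} {M : Mf N} {h : V.X → M.X} {π : Y.X → M.X} {A Q : Set M.X}
    (hh : HolM n N h) (hA : ∀ x, h x ∈ A) (hπ : Over q N π A Q) (hB : Thin n B)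
    (hQ : ∀ x, h x ∈ Q → x ∈ B) :
    ∃ (V' : Mf n) (μ : V'.X → V.X) (g : V'.X → Y.X) (k : ℕ) (G : Fin k → Set V'.X),
      Modif n μ B ∧ HolM n q g ∧ (∀ y, π (g y) = h (μ y)) ∧ Snc n G ∧
      (∀ y, μ y ∈ B ↔ ∃ l, y ∈ G l) ∧ (V.Kah → Y.Kah → V'.Kah) := by
  cases isEmpty_or_nonempty V.X
  · exact ⟨V, id, isEmptyElim, 0, Fin.elim0, ⟨hB, holM_id, isEmptyElim, fun x => isEmptyElim x,
      isEmptyElim, isEmptyElim⟩, isEmptyElim, isEmptyElim, isEmptyElim, isEmptyElim, fun a _ => a⟩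
  obtain ⟨x₀, h₀⟩ := hB.2.nonempty
  have hex : ∀ x ∉ B, ∃ y, π y = h x := fun x hx => hπ.ex (hA x) (mt (hQ x) hx)
  have : Nonempty Y.X := (hex x₀ h₀).nonempty
  choose! φ hφ using hex
  obtain ⟨V', μ, g, k, G, a, b, c, d⟩ := mgr hR (φ := φ) hB (fun x hx => hπ.lift_at
    ((hφ x hx).symm ▸ mt (hQ x) hx) ((hh.at x).cng (by
      filter_upwards [hB.closed.isOpen_compl.mem_nhds hx] with y hy using (hφ y hy).symm)))
    (fp_an hh hπ.hol) fun x hx y => ⟨fun k => hπ.inj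
      ((show h x = π y from k) ▸ mt (hQ x) hx) ((hφ x hx).trans k),
      fun k => show h x = π y from k ▸ (hφ x hx).symm⟩
  exact ⟨V', μ, g, k, G, a, b, fun y => (c y).symm, d⟩

variable {r : ℕ} {u : Fin r → V.X → ℂ}

/-- the vector `(1, u)` -/
def vec (u : Fin r → V.X → ℂ) (x : V.X) : Cm (r + 1) := Fin.cons 1 fun j => u j x

theorem vec_ne (x : V.X) : vec u x ≠ 0 := ne_iff.2 ⟨0, one_ne_zero⟩

theorem vec_hol {x : V.X} (h : ∀ j, Hol n (u j) x) (a : Fin (r + 1)) :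
    Hol n (fun y => vec u y a) x := Fin.cases (hol_const 1 x) h a

/-- the closure of the graph of `[1 : u]` is analytic -/
theorem graph_an (S : PS r) (hB : Thin n B) (hm : ∀ j x, Mer n (u j) x)
    (hu : ∀ j, ∀ x ∉ B, Hol n (u j) x) :
    An (n + r) (closure {z | V.p1 S.P z ∉ B ∧ S.pt (vec u (V.p1 S.P z)) = V.p2 S.P z}) := by
  intro z
  choose a b ha hb h0 h1 using fun j => hm j (V.p1 S.P z)
  obtain ⟨c, hc⟩ := S.lb.cover (V.p2 S.P z)
  have hb' : Hol n (fun y => ∏ j, b j y) (V.p1 S.P z) := .prod _ fun j _ => hb j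
  have hz : Nz (fun y => ∏ j, b j y) (V.p1 S.P z) := P277Z.nz_of_gen
    ((eventually_all.2 fun j => P277Z.Nz.gen (h0 j) (hb j)).mono fun y hy =>
      Finset.prod_ne_zero_iff.2 fun j _ => hy j)
  have k1 : Ana.AnAt (n + r) (⋂ j, {w | a j (V.p1 S.P w) * S.x c (V.p2 S.P w) 0 -
      b j (V.p1 S.P w) * S.x c (V.p2 S.P w) j.succ = 0}) z := Ana.anAt_iInter fun j =>
    Ana.anAt_zero (((hol_p1.hol (ha j)).mul (hol_p2.hol (S.xhol hc 0))).sub
      ((hol_p1.hol (hb j)).mul (hol_p2.hol (S.xhol hc _))))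
  have k2 := Ana.AnAt.union (hB.1.pre (hol_p1 (W := S.P)) z) (Ana.anAt_zero (hol_p1.hol hb'))
  refine (k1.clo k2).congr ?_
  have e1 : ∀ᶠ y in 𝓝 (V.p1 S.P z), (y ∉ B → ∀ j, u j y * b j y = a j y) ∧
      Nz (fun y => ∏ j, b j y) y := by
    filter_upwards [eventually_all.2 fun j => (ha j).near.and ((hb j).near.and
      (P277Z.gen_near (h1 j))), hz.near hb'] with y p q
    exact ⟨fun hy j => P277Z.eq_of_gen ((hu j y hy).mul (p j).2.1).cont (p j).1.cont (p j).2.2, q⟩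
  have e2 := (cont_p1.continuousAt.eventually e1).and
    (cont_p2.continuousAt.eventually ((S.lb.isOpen c).mem_nhds hc))
  have e3 : ∀ᶠ w in 𝓝 z, w ∈ (⋂ j, {w | a j (V.p1 S.P w) * S.x c (V.p2 S.P w) 0 -
      b j (V.p1 S.P w) * S.x c (V.p2 S.P w) j.succ = 0}) \ (V.p1 S.P ⁻¹' B ∪
        {w | ∏ j, b j (V.p1 S.P w) = 0}) ↔ w ∈ {w | (V.p1 S.P w ∉ B ∧
          S.pt (vec u (V.p1 S.P w)) = V.p2 S.P w) ∧ ∏ j, b j (V.p1 S.P w) ≠ 0} := by
    filter_upwards [e2] with w ⟨p, q⟩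
    simp only [Set.mem_sdiff, mem_iInter, mem_ofPred_eq, mem_union, mem_preimage, not_or]
    refine ⟨fun k => ⟨⟨k.2.1, ?_⟩, k.2.2⟩, fun k => ⟨fun j => ?_, k.1.1, k.2⟩⟩
    · rw [← S.pt_x' q, eq_comm, S.pt_eq_iff (S.xnz c _ q) (vec_ne _)]
      refine ⟨S.x c (V.p2 S.P w) 0, funext (Fin.cases (mul_one _).symm fun j => ?_)⟩
      refine mul_left_cancel₀ (Finset.prod_ne_zero_iff.1 k.2.2 j (Finset.mem_univ j)) ?_
      have := k.1 j
      rw [← p.1 k.2.1 j] at this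
      change _ = _ * (_ * u j _)
      linear_combination -this
    · obtain ⟨t, -, ht⟩ := S.x_pt' (vec_ne (u := u) (V.p1 S.P w)) (k.1.2.symm ▸ q)
      rw [← k.1.2, ht, ← p.1 k.1.1 j]
      change _ * (t * 1) - _ * (t * u j _) = 0
      ring
  filter_upwards [Ana.closure_congr e3, e2.eventually_nhds] with w p q
  refine p.trans ⟨fun k => closure_mono (fun _ k => k.1) k, fun k => ?_⟩
  rw [← closure_closure]
  refine mem_closure_iff_frequently.2 (((mem_closure_iff_frequently.1 k).and_eventually q).mono ?_)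
  rintro v ⟨⟨s, t⟩, m⟩
  have c1 : ContinuousAt (fun x => V.pair S.P x (S.pt (vec u x))) (V.p1 S.P v) :=
    ((holM_id.at _).pair (S.holA (vec_hol fun j => hu j _ s) (vec_ne _))).cont
  rw [show v = V.pair S.P (V.p1 S.P v) (S.pt (vec u (V.p1 S.P v))) from prod_ext rfl t.symm]
  refine mem_closure_of_frequently_of_tendsto ?_ c1
  exact ((not_eventually.1 m.1.2).and_eventually
    (hB.closed.isOpen_compl.mem_nhds s)).mono fun y hy => ⟨⟨hy.2, rfl⟩, hy.1⟩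

/-- meromorphic functions give a map to the projective space, on a modification -/
theorem merm (hR : RES) (S : PS r) (hB : Thin n B) (hm : ∀ j x, Mer n (u j) x)
    (hu : ∀ j, ∀ x ∉ B, Hol n (u j) x) :
    ∃ (V' : Mf n) (μ : V'.X → V.X) (g : V'.X → S.P.X), Modif n μ B ∧ HolM n r g ∧
      (∀ y, μ y ∉ B → g y = S.pt (vec u (μ y))) ∧ (V.Kah → S.P.Kah → V'.Kah) := by
  have h1 : ∀ x ∉ B, HolA n r (fun x => S.pt (vec u x)) x := fun x hx =>
    S.holA (vec_hol fun j => hu j x hx) (vec_ne _)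
  have h2 : ∀ x ∉ B, ∀ y, V.pair S.P x y ∈ closure {z | V.p1 S.P z ∉ B ∧
      S.pt (vec u (V.p1 S.P z)) = V.p2 S.P z} ↔ S.pt (vec u x) = y := fun x hx y =>
    ⟨fun k => tendsto_nhds_unique_of_frequently_eq
      (HolA.cmp (x := V.pair S.P x y) (g := fun x => S.pt (vec u x)) (h1 x hx)
        (hol_p1.at _)).cont.tendsto (cont_p2.continuousAt (x := V.pair S.P x y)).tendsto
      ((mem_closure_iff_frequently.1 k).mono fun _ k => k.2), fun k => subset_closure ⟨hx, k⟩⟩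
  obtain ⟨V', μ, g, -, -, a, b, c, -, -, d⟩ := mgr hR hB h1 (graph_an S hB hm hu) h2
  exact ⟨V', μ, g, a, b, fun y hy => ((h2 _ hy _).1 (c y)).symm, d⟩

end Vale.Agent.P281Z.Fi
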