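import Vale.Agent.P281Z.Fi.Sep
import Vale.Agent.P281Z.Fi.Mgr

/-!
# P281, block FIB: the Stein factorization over a projective manifold, up to modifications
-/

open scoped Manifold ContDiff Topology
open Set Filter Function
open Vale.Agent.P272.K Vale.Agent.P285.H281.FD
open Vale.Agent.P277Z (Hol at_chart)
open Vale.Agent.P277Z.Slc (Ind Snc)

noncomputable section

namespace Vale.Agent.P281Z.Fi

variable {n r N : ℕ} {V : Mf n} {P : Mf r} {g : V.X → P.X}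

/-- the rank of a map whose differential has the same kernel as a submersion -/
theorem rank_eq {a : Cm n →L[ℂ] Cm r} {b : Cm n →L[ℂ] Cm N} (ha : Surjective a)
    (h : ∀ ξ, a ξ = 0 ↔ b ξ = 0) :
    Module.finrank ℂ (LinearMap.range (b : Cm n →ₗ[ℂ] Cm N)) = r := by
  have h1 := (a : Cm n →ₗ[ℂ] Cm r).finrank_range_add_finrank_ker
  have h2 := (b : Cm n →ₗ[ℂ] Cm N).finrank_range_add_finrank_ker
  rw [LinearMap.range_eq_top.2 ha, finrank_top, Module.finrank_fin_fun,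
    show LinearMap.ker (a : Cm n →ₗ[ℂ] Cm r) = LinearMap.ker (b : Cm n →ₗ[ℂ] Cm N) from
      Submodule.ext h] at h1
  omega

/-- a lift to a resolution of the image is onto -/
theorem lift_surj {M : Mf N} {Z : Mf r} {V' : Mf n} {h : V.X → M.X} {π : Z.X → M.X} {C : Set M.X}
    {μ : V'.X → V.X} {γ : V'.X → Z.X} (hπ : Over r N π (range h) C) (hμ : Surjective μ)
    (hγ : Continuous γ) (e : ∀ y, π (γ y) = h (μ y)) : Surjective γ := by
  refine range_eq_univ.1 (eq_univ_of_univ_subset (hπ.dense.closure_eq ▸ closure_minimal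
    (fun w hw => ?_) (isCompact_range hγ).isClosed))
  obtain ⟨x, hx⟩ := hπ.maps w
  obtain ⟨y, rfl⟩ := hμ x
  exact ⟨y, hπ.inj hw ((e y).trans hx)⟩

/-- **STEINP** -/
theorem steinp (hR : RES) (hS : START) (hG : GEN) [ConnectedSpace V.X] (hg : HolM n r g)
    (hs : Surjective g) (hP : P.Prj) {T : Set V.X} (hT : Thin n T) :
    ∃ (V' : Mf n) (μ : V'.X → V.X) (B : Set V.X) (k : ℕ) (G : Fin k → Set V'.X) (Z : Mf r)
      (γ : V'.X → Z.X) (v : Z.X → P.X), Modif n μ B ∧ T ⊆ B ∧ Snc n G ∧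
      (∀ y, μ y ∈ B ↔ ∃ l, y ∈ G l) ∧ Fibn n r γ ∧ HolM r r v ∧ (∀ x, v (γ x) = g (μ x)) ∧ Z.Prj ∧
      (V.Kah → V'.Kah) := by
  have := hs.connectedSpace hg.cont
  obtain ⟨M, pr, h, Q, O, k1, k2, ⟨L, hL, pL⟩, k4, hQ, k5, o1, ⟨z, o2⟩, o3⟩ := sep hS hG hg hs hP
  obtain ⟨ρ, C, c1, c2, c3, c4⟩ := img_of_res hR n _ V M h k2 inferInstance
  have c5 : Thin n (h ⁻¹' C) := ⟨c1.pre k2, c2⟩
  obtain rfl : r = ρ := by
    obtain ⟨x, hx⟩ := (c5.union (hQ.pre_surj hg hs)).2.nonempty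
    have he := at_chart (n := n) x
    have he₁ := at_chart (n := r) (g x)
    have he' := at_chart (n := r + 1) (h x)
    obtain ⟨a, b⟩ := k5 x fun k => hx (.inr k)
    rw [← c4 x (fun k => hx (.inl k)) _ _ he he']
    refine (rank_eq (a _ _ he he₁) fun ξ => ⟨b _ _ _ he he₁ he' ξ, fun k => ?_⟩).symm
    rw [← df_congr (.of_forall k4) he, df_comp (k1.at _) (k2.at x) he he' ((k4 x).symm ▸ he₁),
      ContinuousLinearMap.comp_apply, k, map_zero]
  obtain ⟨I, rfl⟩ := idl _ M C c1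
  obtain ⟨Z, π, -, -, z1, -, -, -, -, z2⟩ := hR _ _ M _ I (Ana.remm _ _ V M h k2) c3
  have z3 : Z.Prj := z2 L hL pL
  obtain ⟨V', μ, γ, k, G, m1, m2, m3, m4, m5, m6⟩ := lift hR k2 mem_range_self z1 (hT.union c5)
    fun _ => .inr
  have hγ := lift_surj z1 m1.surj m2.cont m3
  have := m1.conn
  have := hγ.connectedSpace m2.cont
  obtain ⟨Q', q1, q2⟩ := gen_sbm hG m2
  obtain ⟨x, x1, x2⟩ := ((q1.pre_surj m2 hγ).union m1.thin_pre).2.inter_open_nonempty _
    (o1.preimage (hg.comp m1.hol).cont) ((hs.comp m1.surj).nonempty_preimage.2 ⟨z, o2⟩)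
  refine ⟨V', μ, _, k, G, Z, γ, fun w => pr (π w), m1, subset_union_left, m4, m5,
    ⟨m2, hγ, Q', q1, conn_spread m2.cont hγ q1.preconn (fun y hy => lp_of_sbm (q2 y hy) (m2.at y))
      (w₀ := γ x) (fun k => x2 (.inl k)) ?_⟩, k1.comp z1.hol,
    fun y => (congrArg pr (m3 y)).trans (k4 _), z3, fun a => m6 a z3.kah⟩
  refine (congrArg IsPreconnected (Set.ext fun y => ?_)).mp (conn_pre m1.hol.cont m1.conn_all
    (isClosed_singleton.preimage k2.cont) ⟨⟨μ x, rfl⟩, o3 _ x1⟩).2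
  exact ⟨fun k => z1.inj (fun c => x2 (.inr (.inr (show h (μ x) ∈ I.Z from m3 x ▸ c))))
    ((m3 y).trans (k.trans (m3 x).symm)),
    fun k => (m3 y).symm.trans ((congrArg π k).trans (m3 x))⟩

end Vale.Agent.P281Z.Fi
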