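import Vale.Agent.P281Z.Fi.Stein
import Vale.Agent.P281Z.Lf.Rech
import Vale.Agent.P281Z.Pb.Ps
import Vale.Agent.P281Z.Hm.Conn

/-!
# P281, block FIB: the fibration which is defined by meromorphic functions
-/

open scoped Manifold ContDiff Topology
open Set Filter Function
open Vale.Agent.P272.K Vale.Agent.P285.H281.FD
open Vale.Agent.P277Z (Hol Mer at_chart)
open Vale.Agent.P277Z.Slc (Ind Snc dd)

noncomputable section

namespace Vale.Agent.P281Z.Fi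

section loc

variable {n p q : ℕ} {X Y Z : Type} [TopologicalSpace X] [ChartedSpace (Cm n) X]
  [TopologicalSpace Y] [ChartedSpace (Cm p) Y] [TopologicalSpace Z] [ChartedSpace (Cm q) Z]
  [IsManifold 𝓘(ℂ, Cm n) ω X] [IsManifold 𝓘(ℂ, Cm p) ω Y] [IsManifold 𝓘(ℂ, Cm q) ω Z]
  {f : X → Y} {g : Y → Z} {x : X}

theorem sbm_of_imm (hg : HolA p q g (f x)) (hf : HolA n p f x) (h1 : Imm p q g (f x))
    (h : Sbm n q (fun x => g (f x)) x) : Sbm n p f x := fun e e' he he' => by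
  have k := h e _ he (at_chart (g (f x)))
  rw [df_comp hg hf he he' (at_chart _)] at k
  exact Surjective.of_comp_left k (h1 _ _ he' (at_chart _))

theorem sbm_of_ind {h : Fin p → Y → ℂ} (hf : HolA n p f x) (hh : ∀ a, Hol p (h a) (f x))
    (hi : Ind n (fun a y => h a (f y)) x) : Sbm n p f x := fun e e' he he' => by
  have k := (P277Z.Slc.ind_iff_surj _).1 (hi.2 e he)
  rw [show (ContinuousLinearMap.pi fun a => dd (fun y => h a (f y)) e x) =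
    (ContinuousLinearMap.pi fun a => dd (h a) e' (f x)).comp (df f e e' x) from
      ContinuousLinearMap.ext fun v => funext fun a =>
        DFunLike.congr_fun (dd_comp (hh a) hf he he') v] at k
  rw [ContinuousLinearMap.coe_comp] at k
  exact k.of_comp_left ((LinearMap.injective_iff_surjective
    (f := (ContinuousLinearMap.pi fun a => dd (h a) e' (f x)).toLinearMap)).2 k.of_comp)

end loc

variable {n r : ℕ} {W : Mf n} {u : Fin r → W.X → ℂ} {B₀ : Set W.X}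

theorem sbm_iff (S : PS r) {x : W.X} (hu : ∀ j, Hol n (u j) x) :
    Sbm n r (fun y => S.pt (vec u y)) x ↔ Ind n u x := by
  have h1 := S.holA (vec_hol hu) (vec_ne x)
  obtain ⟨c, hc⟩ := S.lb.cover (S.pt (vec u x))
  have h2 := S.ind hc (l := 0) ((S.x_ne_iff (vec_ne x) hc 0).2 one_ne_zero)
  have h3 : ∀ b, ∀ᶠ y in 𝓝 x, S.x c (S.pt (vec u y)) (Fin.succAbove 0 b) /
      S.x c (S.pt (vec u y)) 0 = u b y := fun b =>
    (h1.cont.eventually ((S.lb.isOpen c).mem_nhds hc)).mono fun y hy =>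
      (S.ratio (vec_ne y) hy _ _).trans (div_one _)
  exact ⟨fun k => ind_congr (k.ind h1 h2) h3, fun k => sbm_of_ind h1 h2.1
    (ind_congr k fun b => (h3 b).mono fun _ => Eq.symm)⟩

theorem vec_inj (S : PS r) {x y : W.X} (h : S.pt (vec u x) = S.pt (vec u y)) (j : Fin r) :
    u j x = u j y := by
  simpa [vec] using (S.pt_eq_iff' (vec_ne x) (vec_ne y)).1 h j.succ 0

/-- the general fibres stay connected off a divisor -/
theorem conn_off {V : Mf n} {Z : Mf r} [ConnectedSpace V.X] {γ : V.X → Z.X} {k : ℕ}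
    {G : Fin k → Set V.X} (hγ : Fibn n r γ) (hG : Snc n G) {w : Z.X} (hw : RegAt n r γ G w) :
    IsConnected (γ ⁻¹' {w} ∩ off G) := by
  obtain ⟨x, hx⟩ := hγ.surj w
  obtain ⟨d, hd⟩ := Nat.exists_eq_add_of_le (hw.sbm hγ.hol hG hx).le
  obtain ⟨F, i, h1, h2⟩ := hw.fib hd hγ.hol hG
  have := h1.conn.2 (hγ.conn_all w)
  have h3 := ((snc_thin_off h2).conn).image i h1.hol.cont.continuousOn
  rw [compl_compl] at h3
  rw [← h1.rng, inter_comm, ← image_preimage_eq_inter_range]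
  exact h3

/-- a model of the base with adapted charts -/
theorem base (hR : RES) {Z : Mf r} (hZ : Z.Prj) {Q : Set Z.X} (hQ : Thin r Q) :
    ∃ (Z' : Mf r) (ν : Z'.X → Z.X) (S : Hm.Snc r Z'.X), Modif r ν Q ∧ Z'.Prj ∧ S.Conn ∧
      ∀ z, z ∈ S.U ↔ ν z ∉ Q := by
  obtain ⟨Z₁, ν, k, E, h1, h2, h3, -, h4⟩ := prin hR hQ
  obtain ⟨L, l1, l2⟩ := h4 hZ
  obtain ⟨Z₂, e, S, h, e1, e2, e3, -, e4⟩ := Lf.rech r Z₁ k E h2
  obtain ⟨S', s1, s2, -⟩ := Hm.stConn r Z₂.X S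
  subst h
  have e5 : Modif r e ∅ := Emb.modif ⟨e1, e.injective, fun x => .of_comp (e2.at _) (e1.at x)
    ((imm_id x).cng (.of_forall fun y => (e.symm_apply_apply y).symm)), e.surjective.range_eq⟩
  refine ⟨Z₂, _, S', h1.comp_of e5 hQ subset_rfl (by simp), ⟨_, (e4 L l1).1, (e4 L l1).2 l2⟩, s2,
    fun z => ?_⟩
  rw [s1, h3, not_exists]
  exact forall_congr' fun l => by rw [e3 l]; rfl

theorem fin (hR : RES) (hG : GEN) {V : Mf n} {μ : V.X → W.X} {B : Set W.X} {k : ℕ}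
    {G : Fin k → Set V.X} {Z : Mf r} {γ : V.X → Z.X} {Q₀ : Set Z.X} [ConnectedSpace W.X]
    (hμ : Modif n μ B) (hB : B₀ ⊆ B) (hS : Snc n G) (hb : ∀ y, μ y ∈ B ↔ ∃ l, y ∈ G l)
    (hV : V.Kah) (hγ : Fibn n r γ) (hZ : Z.Prj) (hQ : Thin r Q₀)
    (hi : ∀ y, μ y ∉ B → γ y ∉ Q₀ → Ind n u (μ y))
    (hf : ∀ y y', μ y ∉ B → μ y' ∉ B → γ y = γ y' → ∀ j, u j (μ y) = u j (μ y')) :
    Nonempty (Lf.Fo W u B₀) := by
  have := hμ.conn
  have := hγ.connY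
  obtain ⟨Q₁, q1, q2⟩ := hG n r V Z γ _ G hγ.hol hS
  obtain ⟨Z', ν, S, n1, ⟨A, a1, a2⟩, n2, n3⟩ := base hR hZ (hQ.union q1)
  have b1 : Thin n (B ∪ μ '' (γ ⁻¹' (Q₀ ∪ Q₁))) := hμ.1.union
    (hμ.img_thin (rem_of_res hR) ((hQ.union q1).pre_surj hγ.hol hγ.surj))
  have b2 : ∀ x, μ x ∉ B ∪ μ '' (γ ⁻¹' (Q₀ ∪ Q₁)) ↔ μ x ∉ B ∧ γ x ∉ Q₀ ∪ Q₁ := fun x =>
    ⟨fun k => ⟨fun c => k (.inl c), fun c => k (.inr ⟨x, c, rfl⟩)⟩, fun k c => c.elim k.1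
      fun ⟨_, a, b⟩ => k.2 (hμ.inj k.1 b ▸ a)⟩
  obtain ⟨V', τ, γ', k', G', m1, m2, m3, m4, m5, m6⟩ := lift hR hγ.hol (fun _ => mem_univ _) n1.2
    (hμ.pre_thin b1) fun x hx => .inr ⟨x, hx, rfl⟩
  have b3 : ∀ y, y ∈ off G' ↔ μ (τ y) ∉ B ∪ μ '' (γ ⁻¹' (Q₀ ∪ Q₁)) := fun y =>
    not_exists.symm.trans (not_congr (m5 y).symm)
  have b4 : ∀ y ∈ off G', ν (γ' y) ∉ Q₀ ∪ Q₁ := fun y hy => m3 y ▸ ((b2 _).1 ((b3 y).1 hy)).2
  have kZ : Z'.Kah := Mf.Prj.kah ⟨A, a1, a2⟩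
  obtain ⟨ι, i1, i2, i3⟩ := m1.inv
  refine ⟨⟨V', fun y => μ (τ y), _, k', G', Z', γ', S, A,
    hμ.comp_of m1 b1 subset_union_left (image_preimage_subset _ _), hB.trans subset_union_left, m4,
    m5, m6 hV kZ, n1.conn, kZ, a1, a2, m2,
    lift_surj (hγ.surj.range_eq.symm ▸ n1.2) m1.surj m2.cont m3, n2, fun y hy => (n3 _).2 (b4 y hy),
    fun y hy => ?_, fun y hy => ?_, fun y hy y' hy' e => ?_, fun z hz => ?_⟩⟩
  · refine sbm_of_imm (n1.hol.at _) (m2.at y) (n1.imm (b4 y hy)) (Sbm.cng (.comp (hγ.hol.at _)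
      (m1.hol.at y) ?_ (m1.sbm ((b3 y).1 hy))) (.of_forall fun x => (m3 x).symm))
    exact (q2 _ fun c => ((b2 _).1 ((b3 y).1 hy)).2 (.inr c)).sbm hγ.hol hS rfl
  · exact hi _ ((b2 _).1 ((b3 y).1 hy)).1 fun c => ((b2 _).1 ((b3 y).1 hy)).2 (.inl c)
  · exact hf _ _ ((b2 _).1 ((b3 y).1 hy)).1 ((b2 _).1 ((b3 y').1 hy')).1 (by rw [← m3, e, m3])
  · have z1 := (n3 z).1 hz
    have z2 : ∀ x, x ∈ γ ⁻¹' {ν z} ∩ off G → μ x ∉ B ∪ μ '' (γ ⁻¹' (Q₀ ∪ Q₁)) := fun x hx =>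
      (b2 x).2 ⟨fun c => let ⟨l, hl⟩ := (hb x).1 c; hx.2 l hl, (show γ x = ν z from hx.1) ▸ z1⟩
    refine (congrArg IsConnected (subset_antisymm ?_ fun y hy => ?_)).mp
      ((conn_off hγ hS (q2 _ fun c => z1 (.inr c))).image ι fun x hx =>
        (i3 x (z2 x hx)).1.cont.continuousWithinAt)
    · rintro _ ⟨x, hx, rfl⟩
      exact ⟨n1.inj z1 ((m3 _).trans ((congrArg γ (i1 x)).trans hx.1)),
        (b3 _).2 ((i1 x).symm ▸ z2 x hx)⟩
    · exact ⟨τ y, ⟨(m3 y).symm.trans (congrArg ν hy.1), fun l hl =>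
        ((b2 _).1 ((b3 y).1 hy.2)).1 ((hb _).2 ⟨l, hl⟩)⟩, i2 y ((b3 y).1 hy.2)⟩

/-- **FIB** -/
theorem fib_of (hR : RES) (hS : START) (hG : GEN) : Lf.FIB := by
  intro n W r u B₀ _ hW hB hm hu ⟨x₀, h0, h1⟩
  obtain ⟨S⟩ := Pb.psex r
  have := S.conn
  obtain ⟨W₁, μ₁, g, a1, a2, a3, a4⟩ := merm hR S hB hm hu
  have := a1.conn
  have hφ : ∀ x ∉ B₀, HolA n r (fun y => S.pt (vec u y)) x := fun x hx =>
    S.holA (vec_hol fun j => hu j x hx) (vec_ne x)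
  have hs : Surjective g := by
    obtain ⟨y, rfl⟩ := a1.ex h0
    have k : Sbm n r g y := (Sbm.comp (hφ _ h0) (a1.hol.at y)
      ((sbm_iff S fun j => hu j _ h0).2 h1) (a1.sbm h0)).cng
      ((a1.thin_pre.closed.isOpen_compl.eventually_mem h0).mono fun z hz => (a3 z hz).symm)
    exact range_eq_univ.1 ((Ana.remm _ _ W₁ S.P g a2).eq_univ
      (k.map_nhds (a2.at y) ▸ range_mem_map))
  obtain ⟨V, μ, B, k, G, Z, γ, v, b1, b2, b3, b4, b5, b6, b7, b8, b9⟩ :=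
    steinp hR hS hG a2 hs S.prj a1.thin_pre
  have c1 := a1.comp (rem_of_res hR) b1
  have := c1.conn
  have := b5.connY
  have c2 : ∀ y, μ₁ (μ y) ∉ B₀ ∪ μ₁ '' B → g (μ y) = S.pt (vec u (μ₁ (μ y))) := fun y hy =>
    a3 _ fun c => hy (.inl c)
  obtain ⟨Q, q1, q2⟩ := gen_sbm hG (a2.comp b1.hol)
  refine fin hR hG c1 subset_union_left b3 (fun y => Iff.trans ⟨fun c => ?_,
    fun c => .inr ⟨_, c, rfl⟩⟩ (b4 y)) (b9 (a4 hW S.kah)) b5 b8 (q1.pre_surj b6 fun z => ?_)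
    (fun y p q => ?_) fun y y' p q e => vec_inj S ?_
  · by_cases h : μ₁ (μ y) ∈ B₀
    · exact b2 h
    · obtain ⟨w, p, q⟩ := c.resolve_left h
      exact a1.inj h q ▸ p
  · obtain ⟨x, rfl⟩ := (hs.comp b1.surj) z
    exact ⟨_, b7 x⟩
  · have h : μ₁ (μ y) ∉ B₀ := fun c => p (.inl c)
    exact (sbm_iff S fun j => hu j _ h).1 (Sbm.of_comp (f := fun y => μ₁ (μ y)) (hφ _ h) (c1.hol.at y)
      ((q2 y (b7 y ▸ q)).cng ((c1.thin_pre.closed.isOpen_compl.eventually_mem p).mono c2)))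
  · rw [← c2 y p, ← c2 y' q, ← b7, e, b7]

end Vale.Agent.P281Z.Fi
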