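import Vale.Agent.P281Z.Fi.Top
import Vale.Agent.P281Z.Mf.Fib
import Vale.Agent.P281Z.Pb.Api2

/-!
# P281, block FIB: separation of the components of the general fibre
-/

open scoped Manifold ContDiff Topology Matrix
open Set Filter Function
open Vale.Agent.P272.K Vale.Agent.P285.H281.FD
open Vale.Agent.P277Z (Hol at_chart hol_const)
open Vale.Agent.P277Z.Slc (Ind Snc triv isLB_triv)
open Vale.Agent.P277.HD (pull)

noncomputable section

namespace Vale.Agent.P281Z.Fi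

variable {n r d : ℕ} {V : Mf n} {P : Mf r} {g : V.X → P.X}

theorem hol_lc {F : Mf d} {a : F.X → ℂ} (h : ∀ x, Hol d a x) : IsLocallyConstant a := by
  refine MDifferentiable.isLocallyConstant (I := 𝓘(ℂ, Cm d)) fun x => ?_
  have he := at_chart (n := d) x
  refine ((h x _ he).differentiableAt.mdifferentiableAt.comp x
    (mdifferentiableAt_atlas he.1 he.2)).congr_of_eventuallyEq ?_
  filter_upwards [P277Z.At.left he] with y hy using (congrArg a hy).symm

theorem snc_empty : Snc n (Empty.elim : Empty → Set V.X) := fun _ =>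
  ⟨Empty.elim, fun l => l.elim, fun l => l.1.elim, fun _ _ => linearIndependent_empty_type⟩

theorem mem_off (x : V.X) : x ∈ off (Empty.elim : Empty → Set V.X) := fun l => l.elim

/-- generic smoothness -/
theorem gen_sbm (hG : GEN) (hg : HolM n r g) : ∃ Q, Thin r Q ∧ ∀ x, g x ∉ Q → Sbm n r g x :=
  let ⟨Q, h1, h2⟩ := hG n r V P g Empty Empty.elim hg snc_empty
  ⟨Q, h1, fun _ hx => (h2 _ hx).sbm hg snc_empty rfl⟩

/-- a function which separates the connected components -/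
theorem exists_sep (F : Mf d) : ∃ t : F.X → ℂ, (∀ x, ∀ᶠ y in 𝓝 x, t y = t x) ∧
    ∀ x y, t y = t x ↔ y ∈ connectedComponent x := by
  obtain ⟨f, hf⟩ := exists_injective_nat (ConnectedComponents F.X)
  have h : ∀ x y : F.X, ((f y : ℕ) : ℂ) = (f x : ℕ) ↔ y ∈ connectedComponent x := fun x y =>
    Nat.cast_inj.trans (hf.eq_iff.trans ConnectedComponents.coe_eq_coe')
  exact ⟨fun x => (f x : ℕ), fun x => mem_of_superset
    (isOpen_connectedComponent.mem_nhds mem_connectedComponent) fun y => (h x y).2, h⟩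

/-- the graph of a section, in the completion of a line bundle -/
theorem line {A : Bd P.X} (hA : IsLB r A) (hp : Pos r A) (hg : HolM n r g) (a : ℕ)
    {s : A.ι → V.X → ℂ} (h1 : ∀ b x, g x ∈ A.U b → Hol n (s b) x)
    (h2 : ∀ b b' x, g x ∈ A.U b → g x ∈ A.U b' → s b x = A.g b b' (g x) ^ a * s b' x) :
    ∃ (M : Mf (r + 1)) (pr : M.X → P.X) (h : V.X → M.X), HolM (r + 1) r pr ∧ HolM n (r + 1) h ∧
      M.Prj ∧ (∀ x, pr (h x) = g x) ∧
      ∀ b x x', g x ∈ A.U b → g x' = g x → (h x' = h x ↔ s b x' = s b x) := by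
  obtain ⟨B⟩ := Pb.pbex r 1 (r + 1) P (VB.wt hA ![0, a]) rfl
  have h0 : ∀ c : ℂ, (![1, c] : Cm 2) ≠ 0 := fun c => ne_iff.2 ⟨0, one_ne_zero⟩
  obtain ⟨h, k1, k2, k3⟩ := B.lift hg (O := fun b => g ⁻¹' A.U b)
    (fun b => (hA.isOpen b).preimage hg.cont) (fun x => hA.cover (g x)) (ι := id)
    (fun _ _ k => k) (s := fun b x => ![1, s b x])
    (fun b x hx => Fin.forall_fin_two.2 ⟨hol_const 1 x, h1 b x hx⟩) (fun _ _ _ => h0 _)
    fun b b' x k k' => ⟨1, (funext (Fin.forall_fin_two.2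
      ⟨((Matrix.mulVec_diagonal _ _ (0 : Fin 2)).trans (mul_one _)).symm, (h2 b b' x k k').trans
        (Matrix.mulVec_diagonal (fun c => A.g b b' (g x) ^ ![0, a] c) ![1, s b' x]
          (1 : Fin 2)).symm⟩)).trans (one_smul _ _).symm⟩
  · refine ⟨B.P, B.pr, h, B.hol, k1, B.prj ⟨A, hA, hp⟩, k2, fun b x x' k k' => ?_⟩
    rw [k3 b x k, k3 b x' (k'.symm ▸ k : g x' ∈ A.U b), k']
    refine (B.pt_eq_iff (i := b) k (h0 _) (h0 _)).trans
      ⟨fun ⟨c, hc⟩ => ?_, fun e => ⟨1, by rw [e, one_smul]⟩⟩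
    have e0 : (1 : ℂ) = c * 1 := congrFun hc 0
    have e1 : s b x' = c * s b x := congrFun hc 1
    rw [e1, ← mul_one c, ← e0, one_mul]

theorem sep (hS : START) (hG : GEN) [ConnectedSpace P.X] (hg : HolM n r g) (hs : Surjective g)
    (hP : P.Prj) : ∃ (M : Mf (r + 1)) (pr : M.X → P.X) (h : V.X → M.X) (Q O : Set P.X),
      HolM (r + 1) r pr ∧ HolM n (r + 1) h ∧ M.Prj ∧ (∀ x, pr (h x) = g x) ∧ Thin r Q ∧
      (∀ x, g x ∉ Q → Sbm n r g x ∧ ∀ (e : Chart n V.X) (e₁ : Chart r P.X)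
        (e' : Chart (r + 1) M.X), At e x → At e₁ (g x) → At e' (h x) →
          ∀ ξ, df g e e₁ x ξ = 0 → df h e e' x ξ = 0) ∧
      IsOpen O ∧ O.Nonempty ∧ ∀ x, g x ∈ O → IsPreconnected (h ⁻¹' {h x}) := by
  obtain ⟨A, hA, hp⟩ := hP
  obtain ⟨Q, hQ, h1⟩ := gen_sbm hG hg
  obtain ⟨S, h2, h3⟩ := hS n r V P g A (triv V.X) Empty Empty.elim Empty.elim inferInstance hg hA hp
    isLB_triv snc_empty
  obtain ⟨z, hz⟩ := (h2.union hQ.neg).dense.nonempty
  have hzQ : z ∉ Q := fun k => hz (.inr k)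
  obtain ⟨d, hd⟩ : ∃ d, n = r + d := by
    obtain ⟨x, rfl⟩ := hs z
    exact Nat.exists_eq_add_of_le (h1 x hzQ).le
  have hF : ∀ y ∉ Q, ∃ (F : Mf d) (i : F.X → V.X), Emb d n i (g ⁻¹' {y}) := fun y hy =>
    fib_emb hd hg fun x hx => h1 x (hx.symm ▸ hy)
  obtain ⟨F, i, hi⟩ := hF z hzQ
  obtain ⟨t, t1, t2⟩ := exists_sep F
  obtain ⟨a, ha⟩ := h3 z (fun k => hz (.inl k)) d F i hi (fun _ => t)
    ⟨fun _ x _ _ _ => (hol_const (t x) x).congr ((t1 x).mono fun _ => Eq.symm),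
      fun _ _ x _ _ _ _ => (one_mul _).symm, fun _ x _ _ _ _ => ⟨‖t x‖, (t1 x).mono fun y hy _ => by
        rw [hy, Fintype.prod_empty, mul_one]⟩⟩
  obtain ⟨b, hb⟩ := hA.cover z
  obtain ⟨s, s1, s2⟩ := ha a le_rfl b hb
  have s3 : ∀ b x, g x ∈ A.U b → Hol n (s ((), b)) x := fun b x k =>
    s1.hol _ x trivial ⟨trivial, k⟩ (mem_off _)
  obtain ⟨M, pr, h, k1, k2, k3, k4, k5⟩ := line hA hp hg a (s := fun b => s ((), b)) s3
    fun b b' x k k' => (s1.chg ((), b) ((), b') x trivial ⟨trivial, k⟩ ⟨trivial, k'⟩ (mem_off _)).trans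
      (congrArg (· * _) (one_mul _))
  have lc : ∀ y (F : Mf d) (i : F.X → V.X), Emb d n i (g ⁻¹' {y}) →
      IsLocallyConstant fun x => h (i x) := fun y F i hi => by
    obtain ⟨b, hb⟩ := hA.cover y
    have k : ∀ x, g (i x) ∈ A.U b := fun x => (hi.fib x).symm ▸ hb
    refine (IsLocallyConstant.iff_eventually_eq _).2 fun x => ?_
    exact ((hol_lc fun x => hi.hol.hol (s3 b _ (k x))).eventually_eq x).mono fun w =>
      (k5 b _ _ (k x) ((hi.fib w).trans (hi.fib x).symm)).2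
  have near := sep_near hg.cont k2.cont k4 (z := z)
    (fun x hx => lp_of_sbm (h1 x (hx.symm ▸ hzQ)) (hg.at x))
    (by rw [← hi.rng, ← range_comp]; exact (lc z F i hi).range_finite) fun x hx => by
      obtain ⟨w, rfl⟩ := hi.ex (show x ∈ g ⁻¹' {z} from hx)
      have k : ∀ w', h (i w') = h (i w) ↔ w' ∈ connectedComponent w := fun w' => by
        rw [k5 b _ _ (hx.symm ▸ hb) ((hi.fib w').trans hx.symm), s2 w' () (mem_off _) trivial,
          s2 w () (mem_off _) trivial, t2]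
      refine (congrArg IsPreconnected (subset_antisymm ?_ fun x' hx' => ?_)).mp
        ((isPreconnected_connectedComponent (x := w)).image i hi.hol.cont.continuousOn)
      · rintro _ ⟨w', k', rfl⟩
        exact (k w').2 k'
      · obtain ⟨w', rfl⟩ := hi.ex (show g x' = z by rw [← k4, show h x' = _ from hx', k4, hx])
        exact ⟨w', (k w').1 hx', rfl⟩
  obtain ⟨O, o1, o2, o3⟩ := eventually_nhds_iff.1 (near.and (hQ.closed.isOpen_compl.mem_nhds hzQ))
  refine ⟨M, pr, h, Q, O, k1, k2, k3, k4, hQ, fun x hx => ⟨h1 x hx, fun e e₁ e' a b c ξ k => ?_⟩,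
    o2, ⟨z, o3⟩, fun x hx => (o1 _ hx).1 (fun C a b => ?_) x rfl⟩
  · obtain ⟨F, i, hi⟩ := hF _ hx
    obtain ⟨w, hw⟩ := hi.ex (show x ∈ g ⁻¹' {g x} from rfl)
    have l := lc _ F i hi
    generalize g x = y at hi
    subst hw
    obtain ⟨η, rfl⟩ := (hi.fib_ker hg (h1 _ hx) (at_chart w) a b ξ).1 k
    rw [← ContinuousLinearMap.comp_apply, ← df_comp (k2.at _) (hi.hol.at w) (at_chart w) a c,
      df_congr (l.eventually_eq w) (at_chart w)]
    simp [df]
  · obtain ⟨F, i, hi⟩ := hF _ (o1 _ hx).2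
    rintro _ ⟨p, hp, rfl⟩ _ ⟨q, hq, rfl⟩
    obtain ⟨p, rfl⟩ := hi.ex (a hp)
    obtain ⟨q, rfl⟩ := hi.ex (a hq)
    refine (lc _ F i hi).apply_eq_of_isPreconnected (s := i ⁻¹' C) ?_ hp hq
    rwa [← hi.cemb.isInducing.isPreconnected_image, image_preimage_eq_of_subset (hi.rng ▸ a)]

end Vale.Agent.P281Z.Fi
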