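import Vale.Agent.P281Z.Mf.Mod

/-!
# P281, block FIB: connected fibres of proper submersions
-/

open scoped Manifold ContDiff Topology
open Set Filter Function
open Vale.Agent.P272.K
open Vale.Agent.P277Z (at_chart)

noncomputable section

namespace Vale.Agent.P281Z.Fi

section top

variable {X Y : Type} [TopologicalSpace X] [TopologicalSpace Y] {f : X → Y}

/-- `f` is open at `x`, and small open sets meet the nearby fibres in connected sets -/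
def LP (f : X → Y) (x : X) : Prop :=
  map f (𝓝 x) = 𝓝 (f x) ∧ ∀ U ∈ 𝓝 x, ∃ O, IsOpen O ∧ x ∈ O ∧ O ⊆ U ∧
    ∀ᶠ y in 𝓝 (f x), IsPreconnected (O ∩ f ⁻¹' {y})

theorem LP.ev {x : X} (h : LP f x) {U : Set X} (hU : U ∈ 𝓝 x) :
    ∀ᶠ y in 𝓝 (f x), ∃ x' ∈ U, f x' = y := h.1 ▸ image_mem_map hU

theorem tube {K U : Set X} {z : Y} (hK : IsCompact K) (hc : IsConnected K)
    (hz : ∀ x ∈ K, f x = z ∧ LP f x) (hU : IsOpen U) (hKU : K ⊆ U) :
    ∃ O, IsOpen O ∧ K ⊆ O ∧ O ⊆ U ∧ ∀ᶠ y in 𝓝 z, IsPreconnected (O ∩ f ⁻¹' {y}) := by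
  let good : Set X → Prop := fun O => IsOpen O ∧ O ⊆ U ∧
    ∀ᶠ y in 𝓝 z, IsPreconnected (O ∩ f ⁻¹' {y})
  have un : ∀ O O', good O → good O' → ∀ x ∈ K, x ∈ O → x ∈ O' → good (O ∪ O') := by
    intro O O' a b x hx c d
    refine ⟨a.1.union b.1, union_subset a.2.1 b.2.1, ?_⟩
    filter_upwards [a.2.2, b.2.2, (hz x hx).1 ▸ (hz x hx).2.ev
      (inter_mem (a.1.mem_nhds c) (b.1.mem_nhds d))] with y p q ⟨x', r, s⟩
    rw [union_inter_distrib_right]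
    exact p.union x' ⟨r.1, s⟩ ⟨r.2, s⟩ q
  have rel : ∀ x ∈ K, ∀ x' ∈ K, ∃ O, good O ∧ x ∈ O ∧ x' ∈ O := fun x hx x' hx' => by
    refine hc.2.induction₂ (fun x x' => ∃ O, good O ∧ x ∈ O ∧ x' ∈ O) (fun x hx => ?_)
      (fun _ y _ _ hy _ ⟨O, a, b, c⟩ ⟨O', a', b', c'⟩ =>
        ⟨_, un O O' a a' y hy c b', .inl b, .inr c'⟩) (fun _ _ _ _ ⟨O, a, b, c⟩ => ⟨O, a, c, b⟩)
      hx hx'
    obtain ⟨O, a, b, c, d⟩ := (hz x hx).2.2 U (hU.mem_nhds (hKU hx))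
    exact mem_of_superset (mem_nhdsWithin_of_mem_nhds (a.mem_nhds b)) fun y hy =>
      ⟨O, ⟨a, c, (hz x hx).1 ▸ d⟩, b, hy⟩
  obtain ⟨x₀, h₀⟩ := hc.1
  obtain ⟨O, a, -, c⟩ : ∃ O, good O ∧ x₀ ∈ O ∧ K ⊆ O := by
    refine hK.induction_on (p := fun s => ∃ O, good O ∧ x₀ ∈ O ∧ s ⊆ O) ?_
      (fun _ _ k ⟨O, a, b, c⟩ => ⟨O, a, b, k.trans c⟩)
      (fun _ _ ⟨O, a, b, c⟩ ⟨O', a', b', c'⟩ =>
        ⟨_, un O O' a a' x₀ h₀ b b', .inl b, union_subset_union c c'⟩) fun x hx => ?_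
    · obtain ⟨O, a, b, -⟩ := rel x₀ h₀ x₀ h₀
      exact ⟨O, a, b, empty_subset _⟩
    · obtain ⟨O, a, b, c⟩ := rel x₀ h₀ x hx
      exact ⟨O, mem_nhdsWithin_of_mem_nhds (a.1.mem_nhds c), O, a, b, subset_rfl⟩
  exact ⟨O, a.1, c, a.2.1, a.2.2⟩

variable [CompactSpace X] [T2Space X] [T2Space Y]

omit [T2Space X] in
theorem ev_sub (hf : Continuous f) {z : Y} {O : Set X} (hO : IsOpen O) (h : f ⁻¹' {z} ⊆ O) :
    ∀ᶠ y in 𝓝 z, f ⁻¹' {y} ⊆ O :=
  hf.isClosedMap.eventually_nhds_fiber (p := fun x => x ∈ O) z fun _ hx => hO.mem_nhds (h hx)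

theorem conn_near (hf : Continuous f) (hs : Surjective f) {z : Y} (hL : ∀ x, f x = z → LP f x) :
    ∀ᶠ y in 𝓝 z, IsPreconnected (f ⁻¹' {z}) ↔ IsPreconnected (f ⁻¹' {y}) := by
  have hc : IsClosed (f ⁻¹' {z}) := isClosed_singleton.preimage hf
  by_cases h : IsPreconnected (f ⁻¹' {z})
  · obtain ⟨O, a, b, -, d⟩ := tube hc.isCompact ⟨hs z, h⟩ (fun x hx => ⟨hx, hL x hx⟩) isOpen_univ
      (subset_univ _)
    filter_upwards [d, ev_sub hf a b] with y p q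
    exact iff_of_true h (inter_eq_right.2 q ▸ p)
  · have h' := h
    rw [isPreconnected_iff_subset_of_fully_disjoint_closed hc] at h'
    simp only [not_forall, not_or] at h'
    obtain ⟨u, v, hu, hv, h1, h2, h3, h4⟩ := h'
    obtain ⟨U, V, hU, hV, h5, h6, h7⟩ := SeparatedNhds.of_isCompact_isCompact hu.isCompact
      hv.isCompact h2
    obtain ⟨a, a1, a2⟩ := not_subset.1 h3
    obtain ⟨b, b1, b2⟩ := not_subset.1 h4
    filter_upwards [ev_sub hf (hU.union hV) (h1.trans (union_subset_union h5 h6)),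
      (show f a = z from a1) ▸ (hL a a1).ev (hV.mem_nhds (h6 ((h1 a1).resolve_left a2))),
      (show f b = z from b1) ▸ (hL b b1).ev (hU.mem_nhds (h5 ((h1 b1).resolve_right b2)))]
      with y p ⟨a', q, q'⟩ ⟨b', r, r'⟩
    exact iff_of_false h fun k => (k.subset_or_subset hU hV h7 p).elim
      (fun c => disjoint_left.1 h7 (c q') q) fun c => disjoint_left.1 h7 r (c r')

/-- one connected fibre is enough -/
theorem conn_spread (hf : Continuous f) (hs : Surjective f) {T : Set Y} (hT : IsPreconnected T)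
    (hL : ∀ x, f x ∈ T → LP f x) {w₀ : Y} (h0 : w₀ ∈ T) (hc : IsPreconnected (f ⁻¹' {w₀})) :
    ∀ w ∈ T, IsConnected (f ⁻¹' {w}) := fun w hw =>
  ⟨hs w, (hT.induction₂ (fun a b => IsPreconnected (f ⁻¹' {a}) ↔ IsPreconnected (f ⁻¹' {b}))
    (fun a ha => mem_nhdsWithin_of_mem_nhds (conn_near hf hs fun x hx => hL x (hx ▸ ha)))
    (fun _ _ _ _ _ _ => Iff.trans) (fun _ _ _ _ => Iff.symm) h0 hw).1 hc⟩

/-- if `h` separates the components of one fibre then it separates those of the nearby fibres -/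
theorem sep_near {M : Type} [TopologicalSpace M] [T2Space M] (hf : Continuous f) {h : X → M}
    (hh : Continuous h) {pr : M → Y} (hp : ∀ x, pr (h x) = f x) {z : Y}
    (hL : ∀ x, f x = z → LP f x) (hfin : (h '' (f ⁻¹' {z})).Finite)
    (hc : ∀ x, f x = z → IsPreconnected (h ⁻¹' {h x})) :
    ∀ᶠ y in 𝓝 z, (∀ C ⊆ f ⁻¹' {y}, IsPreconnected C → (h '' C).Subsingleton) →
      ∀ x, f x = y → IsPreconnected (h ⁻¹' {h x}) := by
  obtain ⟨N, h1, h2⟩ := hfin.t2_separation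
  have key : ∀ w : h '' (f ⁻¹' {z}), ∃ O, IsOpen O ∧ h ⁻¹' {w.1} ⊆ O ∧ O ⊆ h ⁻¹' N w ∧
      ∀ᶠ y in 𝓝 z, IsPreconnected (O ∩ f ⁻¹' {y}) := by
    rintro ⟨_, x, hx, rfl⟩
    have k : ∀ x' ∈ h ⁻¹' {h x}, f x' = z := fun x' hx' => by
      rw [← hp, show h x' = h x from hx', hp]
      exact hx
    exact tube (isClosed_singleton.preimage hh).isCompact ⟨⟨x, rfl⟩, hc x hx⟩
      (fun x' hx' => ⟨k x' hx', hL x' (k x' hx')⟩) ((h1 _).2.preimage hh)
      (preimage_mono (singleton_subset_iff.2 (h1 _).1))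
  choose O a b c d using key
  have := hfin.to_subtype
  filter_upwards [eventually_all.2 d, ev_sub hf (isOpen_iUnion a)
    fun x hx => mem_iUnion.2 ⟨⟨_, x, hx, rfl⟩, b _ rfl⟩] with y p q k x hx
  obtain ⟨w, hw⟩ := mem_iUnion.1 (q hx)
  refine (congrArg IsPreconnected (subset_antisymm (fun x' hx' => ?_) fun x' hx' => ?_)).mp (p w)
  · exact k _ inter_subset_right (p w) ⟨x', hx', rfl⟩ ⟨x, ⟨hw, hx⟩, rfl⟩
  · have e : f x' = y := by rw [← hp, show h x' = h x from hx', hp, hx]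
    obtain ⟨w', hw'⟩ := mem_iUnion.1 (q e)
    obtain rfl : w = w' := Subtype.ext (by_contra fun ne => disjoint_left.1 (h2 w.2 w'.2 ne)
      (c w hw) ((show h x' = h x from hx') ▸ c w' hw'))
    exact ⟨hw', e⟩

end top

variable {n p : ℕ} {X Y : Type} [TopologicalSpace X] [ChartedSpace (Cm n) X]
  [TopologicalSpace Y] [ChartedSpace (Cm p) Y] [IsManifold 𝓘(ℂ, Cm n) ω X]
  [IsManifold 𝓘(ℂ, Cm p) ω Y] {f : X → Y} {x : X}

theorem lp_of_sbm (hs : Sbm n p f x) (hf : HolA n p f x) : LP f x := by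
  refine ⟨hs.map_nhds hf, fun U hU => ?_⟩
  have he' := at_chart (n := p) (f x)
  set c := chartAt (Cm p) (f x)
  obtain ⟨Θ, -, h2, h3, h4⟩ := exists_co ((sbm_iff_ind hf he').1 hs) (d := n - p)
    (by simpa using Nat.add_sub_cancel' hs.le) (inter_mem hU (hf.cont.eventually (at_near he')))
  obtain ⟨ε, hε, hb⟩ := Metric.mem_nhds_iff.1 (Θ.open_target.mem_nhds (Θ.map_source h2))
  rw [← ball_prod_same] at hb
  refine ⟨Θ.source ∩ Θ ⁻¹' Metric.ball (Θ x) ε, Θ.isOpen_inter_preimage Metric.isOpen_ball,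
    ⟨h2, Metric.mem_ball_self hε⟩, fun y hy => (h3 hy.1).1, ?_⟩
  have h5 : c (f x) ∈ Metric.ball (Θ x).1 ε := h4 x h2 ▸ Metric.mem_ball_self hε
  filter_upwards [at_near he', (c.continuousAt he'.2).eventually (Metric.isOpen_ball.mem_nhds h5)]
    with y k1 k2
  have h6 : ∀ b ∈ Metric.ball (Θ x).2 ε, (c y, b) ∈ Θ.target := fun b k => hb ⟨k2, k⟩
  refine (congrArg IsPreconnected (subset_antisymm ?_ fun w hw => ?_)).mp
    ((convex_ball (Θ x).2 ε).isPreconnected.image (fun b => Θ.symm (c y, b))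
      (Θ.continuousOn_symm.comp (Continuous.prodMk_right _).continuousOn h6))
  · rintro _ ⟨b, k, rfl⟩
    have k3 := Θ.map_target (h6 b k)
    refine ⟨⟨k3, ?_⟩, c.injOn (h3 k3).2.2 k1.2
      ((h4 _ k3).symm.trans (congrArg Prod.fst (Θ.right_inv (h6 b k))))⟩
    rw [mem_preimage, Θ.right_inv (h6 b k), ← ball_prod_same]
    exact ⟨k2, k⟩
  · have k3 : Θ w ∈ Metric.ball (Θ x).1 ε ×ˢ Metric.ball (Θ x).2 ε := by
      rw [ball_prod_same]
      exact hw.1.2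
    refine ⟨(Θ w).2, k3.2, ?_⟩
    rw [← show f w = y from hw.2]
    have k4 : (c (f w), (Θ w).2) = Θ w := Prod.ext (h4 w hw.1.1).symm rfl
    exact (congrArg Θ.symm k4).trans (Θ.left_inv hw.1.1)

end Vale.Agent.P281Z.Fi
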